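import Vale.Agent.P097.H209D.Start
import Vale.Agent.P097.Disc.D1Defs
import Vale.Agent.P097.D1G.Defs

/-! # P097 / H209D : the start of the graded bootstrap, in the form of the fields of `D1G.Pair` -/

set_option linter.all false

namespace Vale.Agent.P097.H209D

open Vale.Agent.P097 Vale.Agent.P097.FD Vale.Agent.P097.TOP Vale.Agent.P097.Reg
open Vale.Agent.P097.H407
open Filter MeasureTheory
open scoped ContDiff Topology

theorem cf_sub' {f g : ℝ → ℝ} (hf : Continuous f) (hg : Continuous g) (k : ℤ) :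
    R4.cf (fun x => f x - g x) k = R4.cf f k - R4.cf g k := by
  unfold R4.cf
  rw [← mul_sub, ← intervalIntegral.integral_sub
    (by apply Continuous.intervalIntegrable; fun_prop)
    (by apply Continuous.intervalIntegrable; fun_prop)]
  congr 1
  refine intervalIntegral.integral_congr fun x _ => ?_
  show ((f x - g x : ℝ) : ℂ) * _ = _
  push_cast
  ring

theorem cf_one (k : ℤ) : R4.cf (fun _ => 1) k = if k = 0 then 1 else 0 := by
  have hpi := Real.pi_pos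
  unfold R4.cf
  split_ifs with h
  · subst h
    have : (Real.pi : ℂ) ≠ 0 := by exact_mod_cast hpi.ne'
    simp
    field_simp
  · have h1 : ∀ x : ℝ, ((1 : ℝ) : ℂ) * Complex.exp (-(Complex.I * k * x)) =
        Complex.exp ((-(Complex.I * k)) * x) := by
      intro x
      rw [Complex.ofReal_one, one_mul]
      congr 1
      ring
    simp only [h1]
    have hc0 : -(Complex.I * (k : ℂ)) ≠ 0 :=
      neg_ne_zero.2 (mul_ne_zero Complex.I_ne_zero (by exact_mod_cast h))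
    rw [integral_exp_mul_complex hc0]
    have h2 : -(Complex.I * (k : ℂ)) * ((2 * Real.pi : ℝ) : ℂ) =
        ((-k : ℤ) : ℂ) * (2 * Real.pi * Complex.I) := by push_cast; ring
    rw [h2, Complex.exp_int_mul_two_pi_mul_I]
    simp

theorem cf_sub_one {h : ℝ → ℝ} (hc : Continuous h) (k : ℤ) :
    R4.cf (fun x => h x - 1) k = R4.cf h k - if k = 0 then 1 else 0 := by
  rw [cf_sub' hc continuous_const, cf_one]

/-- the disc -/
theorem strip_disc {β M : ℝ} (hM : 1 ≤ M) : StripTab β M (fun _ => (1 : ℝ)) := by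
  refine ⟨fun _ => rfl, fun x => ?_, fun _ => 1, differentiableOn_const _, fun z _ => ?_, fun x => ?_⟩
  · simp
    linarith
  · simpa using hM
  · simp

theorem rsn_disc : ∃ η : ℝ, 0 < η ∧ Rsn (fun _ => (1 : ℝ)) η := by
  let v : Fin 5 → ℝ := fun i => if i = 2 then 1 else 0
  have hv : v ∈ EP := by
    show √(v 3 ^ 2 + v 4 ^ 2) < v 2
    simp [v]
  obtain ⟨η, β, M, hη, hβ, hM, H⟩ := stELLC {v} (Set.singleton_subset_iff.2 hv) isCompact_singleton
  have hE : EF v = fun _ => (1 : ℝ) := by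
    funext x
    unfold EF EQ
    simp [v]
  have h1 := H v rfl
  rw [hE] at h1
  refine ⟨η, hη, rsn_of_collar ?_ hη h1.2⟩
  refine ⟨contDiff_const, fun _ => rfl, fun x => ?_⟩
  simp

/-- linear strip bound for a sequence -/
def StP (B : ℝ) (C₀ : ℕ) (a : ℤ → ℂ) : Prop :=
  ∀ S : ℝ, (∀ k, ‖a k‖ ≤ S) → ∀ k : ℤ, ‖a k‖ ≤ C₀ * S * Real.exp (-(B * |(k : ℝ)|))

theorem StP.mono {B : ℝ} {C₀ C₁ : ℕ} {a : ℤ → ℂ} (h : StP B C₀ a) (hC : C₀ ≤ C₁) : StP B C₁ a := by
  intro S hS k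
  have hS0 : 0 ≤ S := (norm_nonneg _).trans (hS 0)
  refine (h S hS k).trans ?_
  have : (C₀ : ℝ) ≤ C₁ := by exact_mod_cast hC
  gcongr

/-- START -/
theorem start {η β M : ℝ} (hη : 0 < η) (hβ : 0 < β) (hM : 1 ≤ M) : ∃ (B : ℝ) (C₁ : ℕ), 0 < B ∧
    ∀ h e : ℝ → ℝ, StripTab β M h → StripTab β M e → Rsn h η → Rsn e η →
      StP B C₁ (fun k => R4.cf (fun x => h x - 1) k) ∧
      StP B C₁ (fun k => R4.cf (fun x => e x - 1) k) ∧
      StP B C₁ (fun k => R4.cf (fun x => h x - 1) k - R4.cf (fun x => e x - 1) k) := by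
  obtain ⟨η₁, hη₁, hd⟩ := rsn_disc
  have hη' : 0 < min η η₁ := lt_min hη hη₁
  obtain ⟨B, C, hB, hC, H⟩ := lin_strip hη' hβ hM
  obtain ⟨C₁, hC₁⟩ := exists_nat_ge C
  have hd' := (hd.mono (min_le_right η η₁)).cst
  have key : ∀ {f g : ℝ → ℝ}, StripTab β M f → StripTab β M g → Rsn f η → CstAll g (min η η₁) →
      StP B C₁ (fun k => R4.cf (fun x => f x - g x) k) := by
    intro f g hf hg rf rg S hS k
    have hS0 : 0 ≤ S := (norm_nonneg _).trans (hS 0)
    refine ((H f g hf hg (rf.mono (min_le_left η η₁)).cst rg S hS).2 k).trans ?_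
    gcongr
  refine ⟨B, C₁, hB, fun h e th te rh re => ⟨?_, ?_, ?_⟩⟩
  · exact key th (strip_disc hM) rh hd'
  · exact key te (strip_disc hM) re hd'
  · have h1 := key th te rh (re.mono (min_le_left η η₁)).cst
    have h2 : ∀ k : ℤ, R4.cf (fun x => h x - 1) k - R4.cf (fun x => e x - 1) k =
        R4.cf (fun x => h x - e x) k := by
      intro k
      have c1 := (th.contDiff hβ).continuous
      have c2 := (te.contDiff hβ).continuous
      rw [cf_sub_one c1, cf_sub_one c2, cf_sub' c1 c2]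
      ring
    simp only [h2]
    exact h1

/-- the maximum of the coefficients is attained at the low modes -/
theorem sup_low {B : ℝ} {C₁ : ℕ} (hB : 0 < B) : ∃ N₁ : ℕ, ∀ N₀ : ℕ, N₁ ≤ N₀ → ∀ a : ℤ → ℂ,
    StP B C₁ a → (∃ S, ∀ k, ‖a k‖ ≤ S) → ∀ T : ℝ, (∀ k : ℤ, |k| ≤ N₀ → ‖a k‖ ≤ T) →
      ∀ k, ‖a k‖ ≤ T := by
  have h1 : Tendsto (fun n : ℕ => (C₁ : ℝ) * Real.exp (-(B * (n : ℝ)))) atTop (𝓝 0) := by
    have h2 : Tendsto (fun n : ℕ => B * (n : ℝ)) atTop atTop :=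
      Tendsto.const_mul_atTop hB tendsto_natCast_atTop_atTop
    have h3 := (Real.tendsto_exp_neg_atTop_nhds_zero.comp h2).const_mul (C₁ : ℝ)
    simpa using h3
  obtain ⟨N₁, hN₁⟩ := Filter.eventually_atTop.1 (h1.eventually (gt_mem_nhds (by norm_num : (0 : ℝ) < 1 / 2)))
  refine ⟨N₁, fun N₀ hN a ha hb T hT => ?_⟩
  obtain ⟨S0, hS0⟩ := hb
  have hbd : BddAbove (Set.range fun k : ℤ => ‖a k‖) := ⟨S0, by rintro _ ⟨k, rfl⟩; exact hS0 k⟩
  set S : ℝ := ⨆ k : ℤ, ‖a k‖ with hS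
  have hle : ∀ k, ‖a k‖ ≤ S := fun k => le_ciSup hbd k
  have hS0' : 0 ≤ S := (norm_nonneg _).trans (hle 0)
  have hhigh : ∀ k : ℤ, ¬ |k| ≤ N₀ → ‖a k‖ ≤ S / 2 := by
    intro k hk
    have h4 := ha S hle k
    have hk' : (N₀ : ℤ) < k.natAbs := by rw [← Int.abs_eq_natAbs]; exact not_le.1 hk
    have h5 := hN₁ k.natAbs (by omega)
    have h6 : ((k.natAbs : ℕ) : ℝ) = |(k : ℝ)| := by
      rw [Nat.cast_natAbs]; push_cast; rfl
    rw [h6] at h5
    have h7 : (C₁ : ℝ) * S * Real.exp (-(B * |(k : ℝ)|)) =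
        ((C₁ : ℝ) * Real.exp (-(B * |(k : ℝ)|))) * S := by ring
    rw [h7] at h4
    have h8 := mul_le_mul_of_nonneg_right h5.le hS0'
    linarith
  have hfin : S ≤ max T (S / 2) := by
    refine ciSup_le fun k => ?_
    by_cases hk : |k| ≤ N₀
    · exact (hT k hk).trans (le_max_left _ _)
    · exact (hhigh k hk).trans (le_max_right _ _)
  have hST : S ≤ T := by
    rcases le_max_iff.1 hfin with h | h
    · exact h
    · have : S ≤ 0 := by linarith
      exact this.trans ((norm_nonneg _).trans (hT 0 (by simp)))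
  exact fun k => (hle k).trans hST

theorem cf_bounded {h : ℝ → ℝ} (hc : Continuous h) (hp : ∀ x, h (x + 2 * Real.pi) = h x) :
    ∃ S, ∀ k : ℤ, ‖R4.cf h k‖ ≤ S := by
  obtain ⟨S, hS⟩ := R4.exists_bound hc hp
  exact ⟨S, fun k => R4.cf_le hS.2 k⟩

/-- all the fields of `D1G.Pair` which do not involve the functionals, and smallness, for a pair of
resonant tables -/
theorem start_pair {η β M : ℝ} (hη : 0 < η) (hβ : 0 < β) (hM : 1 ≤ M) :
    ∃ (B : ℝ) (C₁ N₁ : ℕ), 0 < B ∧ ∀ N₀ : ℕ, N₁ ≤ N₀ → ∀ (h e : ℝ → ℝ) (δ μ K : ℝ),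
      StripTab β M h → StripTab β M e → Rsn h η → Rsn e η → 0 < δ → 0 < μ → μ ≤ 1 → 0 ≤ K →
      R4.cf e 0 = 1 → R4.cf e 1 = 0 → (∀ k : ℕ, 2 ≤ k → ‖R4.cf e k‖ ≤ (K * δ) ^ k) →
      R4.cf h 0 = 1 → R4.cf h 1 = 0 →
      (∀ k : ℕ, 2 ≤ k → k ≤ N₀ → ‖R4.cf h k - R4.cf e k‖ ≤ μ * δ ^ k) →
      ∀ a a' : ℤ → ℂ, (∀ k, a k = R4.cf (fun x => h x - 1) k) →
        (∀ k, a' k = R4.cf (fun x => e x - 1) k) →
        StP B C₁ a ∧ StP B C₁ a' ∧ StP B C₁ (fun k => a k - a' k) ∧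
        (∀ k, a (-k) = (starRingEnd ℂ) (a k)) ∧ (∀ k, a' (-k) = (starRingEnd ℂ) (a' k)) ∧
        (∀ k : ℤ, |k| ≤ 1 → a k = 0) ∧ (∀ k : ℤ, |k| ≤ 1 → a' k = 0) ∧
        (∀ k : ℕ, k ≤ N₀ → ‖a k‖ ≤ ((K + 1) * δ) ^ k) ∧
        (∀ k : ℕ, ‖a' k‖ ≤ ((K + 1) * δ) ^ k) ∧
        (∀ k : ℕ, k ≤ N₀ → ‖a k - a' k‖ ≤ μ * ((K + 1) * δ) ^ k) ∧
        (∀ k : ℕ, a k = R4.cf h k - if k = 0 then 1 else 0) ∧
        (∀ k : ℕ, a' k = R4.cf e k - if k = 0 then 1 else 0) ∧
        ((K + 1) * δ ≤ 1 → (∀ k, ‖a k‖ ≤ ((K + 1) * δ) ^ 2) ∧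
          (∀ k, ‖a' k‖ ≤ ((K + 1) * δ) ^ 2) ∧ ∀ k, ‖a k - a' k‖ ≤ μ * ((K + 1) * δ) ^ 2) := by
  obtain ⟨B, C₁, hB, H⟩ := start hη hβ hM
  obtain ⟨N₁, hN₁⟩ := sup_low (C₁ := C₁) hB
  refine ⟨B, C₁, N₁, hB, ?_⟩
  intro N₀ hN h e δ μ K th te rh re hδ hμ hμ1 hK e0 e1 ek h0 h1 hk a a' ha ha'
  have hcc := (th.contDiff hβ).continuous
  have ecc := (te.contDiff hβ).continuous
  obtain ⟨s1, s2, s3⟩ := H h e th te rh re
  have fa : a = fun k => R4.cf (fun x => h x - 1) k := funext ha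
  have fa' : a' = fun k => R4.cf (fun x => e x - 1) k := funext ha'
  have va : ∀ k : ℤ, a k = R4.cf h k - if k = 0 then 1 else 0 := fun k => by
    rw [ha, cf_sub_one hcc]
  have va' : ∀ k : ℤ, a' k = R4.cf e k - if k = 0 then 1 else 0 := fun k => by
    rw [ha', cf_sub_one ecc]
  have cja : ∀ k, a (-k) = (starRingEnd ℂ) (a k) := fun k => by rw [ha, ha]; exact R4.cf_conj _ k
  have cja' : ∀ k, a' (-k) = (starRingEnd ℂ) (a' k) := fun k => by
    rw [ha', ha']; exact R4.cf_conj _ k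
  have a0 : a 0 = 0 := by rw [va, h0]; simp
  have a0' : a' 0 = 0 := by rw [va', e0]; simp
  have a1 : a 1 = 0 := by rw [va, h1]; simp
  have a1' : a' 1 = 0 := by rw [va', e1]; simp
  have low : ∀ k : ℤ, |k| ≤ 1 → a k = 0 := by
    intro k hk1
    have : k = -1 ∨ k = 0 ∨ k = 1 := by rw [abs_le] at hk1; omega
    rcases this with rfl | rfl | rfl
    · rw [cja, a1, map_zero]
    · exact a0
    · exact a1
  have low' : ∀ k : ℤ, |k| ≤ 1 → a' k = 0 := by
    intro k hk1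
    have : k = -1 ∨ k = 0 ∨ k = 1 := by rw [abs_le] at hk1; omega
    rcases this with rfl | rfl | rfl
    · rw [cja', a1', map_zero]
    · exact a0'
    · exact a1'
  have hK1 : 0 ≤ K + 1 := by linarith
  have vk : ∀ k : ℕ, 2 ≤ k → a k = R4.cf h k := fun k hk2 => by
    rw [va, if_neg (by omega), sub_zero]
  have vk' : ∀ k : ℕ, 2 ≤ k → a' k = R4.cf e k := fun k hk2 => by
    rw [va', if_neg (by omega), sub_zero]
  have hKk : ∀ k : ℕ, 1 ≤ k → K ^ k + 1 ≤ (K + 1) ^ k := by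
    intro k hk1
    have := pow_add_pow_le hK zero_le_one (Nat.pos_iff_ne_zero.1 hk1)
    simpa using this
  have grd : ∀ k : ℕ, k ≤ N₀ → ‖a k - a' k‖ ≤ μ * ((K + 1) * δ) ^ k := by
    intro k hkN
    rcases Nat.lt_or_ge k 2 with hk2 | hk2
    · rw [low k (by rw [Nat.abs_cast]; omega), low' k (by rw [Nat.abs_cast]; omega), sub_zero, norm_zero]
      positivity
    · rw [vk k hk2, vk' k hk2, mul_pow]
      refine (hk k hk2 hkN).trans ?_
      refine mul_le_mul_of_nonneg_left ?_ hμ.le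
      have : 1 ≤ (K + 1) ^ k := one_le_pow₀ (by linarith)
      exact le_mul_of_one_le_left (by positivity) this
  have gr' : ∀ k : ℕ, ‖a' k‖ ≤ ((K + 1) * δ) ^ k := by
    intro k
    rcases Nat.lt_or_ge k 2 with hk2 | hk2
    · rw [low' k (by rw [Nat.abs_cast]; omega), norm_zero]
      positivity
    · rw [vk' k hk2]
      refine (ek k hk2).trans ?_
      gcongr
      linarith
  have gr : ∀ k : ℕ, k ≤ N₀ → ‖a k‖ ≤ ((K + 1) * δ) ^ k := by
    intro k hkN
    rcases Nat.lt_or_ge k 2 with hk2 | hk2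
    · rw [low k (by rw [Nat.abs_cast]; omega), norm_zero]
      positivity
    · rw [vk k hk2]
      have e3 : R4.cf h k = (R4.cf h k - R4.cf e k) + R4.cf e k := by ring
      rw [e3]
      refine (norm_add_le _ _).trans ((add_le_add (hk k hk2 hkN) (ek k hk2)).trans ?_)
      have h5 : μ * δ ^ k ≤ δ ^ k := mul_le_of_le_one_left (by positivity) hμ1
      rw [mul_pow, mul_pow]
      have h6 := mul_le_mul_of_nonneg_right (hKk k (by omega)) (by positivity : 0 ≤ δ ^ k)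
      linarith
  have stA : StP B C₁ a := by rw [fa]; exact s1
  have stA' : StP B C₁ a' := by rw [fa']; exact s2
  have stD : StP B C₁ (fun k => a k - a' k) := by rw [fa, fa']; exact s3
  refine ⟨stA, stA', stD, cja, cja', low, low', gr, gr', grd, fun k => ?_, fun k => ?_, ?_⟩
  · have := va (k : ℤ)
    simpa using this
  · have := va' (k : ℤ)
    simpa using this
  · intro hδ1
    have hδ0 : 0 ≤ (K + 1) * δ := by positivity
    have ba : ∃ S, ∀ k, ‖a k‖ ≤ S := by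
      rw [fa]
      exact cf_bounded (hcc.sub continuous_const) fun x => by
        show h (x + 2 * Real.pi) - 1 = h x - 1
        rw [th.1]
    have ba' : ∃ S, ∀ k, ‖a' k‖ ≤ S := by
      rw [fa']
      exact cf_bounded (ecc.sub continuous_const) fun x => by
        show e (x + 2 * Real.pi) - 1 = e x - 1
        rw [te.1]
    have bd : ∃ S, ∀ k, ‖a k - a' k‖ ≤ S := by
      obtain ⟨S, hS⟩ := ba
      obtain ⟨S', hS'⟩ := ba'
      exact ⟨S + S', fun k => (norm_sub_le _ _).trans (add_le_add (hS k) (hS' k))⟩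
    have pw : ∀ k : ℕ, 2 ≤ k → ((K + 1) * δ) ^ k ≤ ((K + 1) * δ) ^ 2 := fun k hk2 =>
      pow_le_pow_of_le_one hδ0 hδ1 hk2
    have toNat : ∀ (f : ℤ → ℂ) (T : ℝ), (∀ k, f (-k) = (starRingEnd ℂ) (f k)) → 0 ≤ T →
        (∀ k : ℤ, |k| ≤ 1 → f k = 0) → (∀ k : ℕ, 2 ≤ k → k ≤ N₀ → ‖f k‖ ≤ T) →
        ∀ k : ℤ, |k| ≤ N₀ → ‖f k‖ ≤ T := by
      intro f T hcj hT hlow hf k hkN
      by_cases h1k : |k| ≤ 1
      · rw [hlow k h1k, norm_zero]; exact hT
      · have h2k : 2 ≤ k.natAbs := by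
          rw [not_le, Int.abs_eq_natAbs] at h1k
          omega
        have h3k : k.natAbs ≤ N₀ := by rw [Int.abs_eq_natAbs] at hkN; omega
        have h4 := hf k.natAbs h2k h3k
        rcases Int.natAbs_eq k with h5 | h5
        · rw [h5]; exact h4
        · rw [h5, hcj, RCLike.norm_conj]; exact h4
    refine ⟨?_, ?_, ?_⟩
    · exact hN₁ N₀ hN a stA ba _ (toNat a _ cja (by positivity) low
        fun k hk2 hkN => (gr k hkN).trans (pw k hk2))
    · exact hN₁ N₀ hN a' stA' ba' _ (toNat a' _ cja' (by positivity) low'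
        fun k hk2 hkN => (gr' k).trans (pw k hk2))
    · refine hN₁ N₀ hN _ stD bd _ (toNat (fun k => a k - a' k) _ ?_ (by positivity) ?_ ?_)
      · intro k
        show a (-k) - a' (-k) = _
        rw [cja, cja', map_sub]
      · intro k hk1
        show a k - a' k = 0
        rw [low k hk1, low' k hk1, sub_zero]
      · intro k hk2 hkN
        exact (grd k hkN).trans (mul_le_mul_of_nonneg_left (pw k hk2) hμ.le)

end Vale.Agent.P097.H209D
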