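import Vale.Agent.P097.PV.Max

/-! # P097 / H209D : maximal chains of a table close to the disc -/

set_option linter.all false

namespace Vale.Agent.P097.H209D

open Real Vale.Agent.P097 Vale.Agent.P097.PV

theorem cos_gap {α δ : ℝ} (hα0 : 0 < α) (hαπ : α < π) (hδ0 : 0 < δ) (hδπ : δ < π) :
    sin α * |δ - α| ≤ π * |cos δ - cos α| := by
  have hpi := Real.pi_pos
  have e1 : cos δ - cos α = -2 * sin ((δ + α) / 2) * sin ((δ - α) / 2) := Real.cos_sub_cos δ α
  have hA0 : 0 ≤ sin (α / 2) := sin_nonneg_of_nonneg_of_le_pi (by linarith) (by linarith)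
  have hB0 : 0 ≤ cos (α / 2) := cos_nonneg_of_neg_pi_div_two_le_of_le (by linarith) (by linarith)
  have ha0 : 0 ≤ sin (δ / 2) := sin_nonneg_of_nonneg_of_le_pi (by linarith) (by linarith)
  have hb0 : 0 ≤ cos (δ / 2) := cos_nonneg_of_neg_pi_div_two_le_of_le (by linarith) (by linarith)
  have hA1 := sin_le_one (α / 2)
  have hB1 := cos_le_one (α / 2)
  have ha1 := sin_le_one (δ / 2)
  have hb1 := cos_le_one (δ / 2)
  have hab : 1 ≤ sin (δ / 2) + cos (δ / 2) := by
    have := sin_sq_add_cos_sq (δ / 2)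
    nlinarith
  have hs : sin α = 2 * sin (α / 2) * cos (α / 2) := by
    rw [← sin_two_mul]; congr 1; ring
  have e2 : sin ((δ + α) / 2) = sin (δ / 2) * cos (α / 2) + cos (δ / 2) * sin (α / 2) := by
    rw [← sin_add]; congr 1; ring
  have hlow : sin α / 2 ≤ sin ((δ + α) / 2) := by
    rw [e2, hs]
    have h1 : sin (δ / 2) * (sin (α / 2) * cos (α / 2)) ≤ sin (δ / 2) * cos (α / 2) :=
      mul_le_mul_of_nonneg_left (mul_le_of_le_one_left hB0 hA1) ha0
    have h2 : cos (δ / 2) * (sin (α / 2) * cos (α / 2)) ≤ cos (δ / 2) * sin (α / 2) :=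
      mul_le_mul_of_nonneg_left (mul_le_of_le_one_right hA0 hB1) hb0
    have h3 : 0 ≤ sin (α / 2) * cos (α / 2) := mul_nonneg hA0 hB0
    have h4 := mul_le_mul_of_nonneg_right hab h3
    linarith
  have hsin0 : 0 < sin α := sin_pos_of_pos_of_lt_pi hα0 hαπ
  have hy : |(δ - α) / 2| ≤ π / 2 := by
    rw [abs_le]; constructor <;> linarith
  have hj := Real.mul_abs_le_abs_sin hy
  have h5 : |cos δ - cos α| = 2 * sin ((δ + α) / 2) * |sin ((δ - α) / 2)| := by
    rw [e1, abs_mul, abs_mul, abs_neg, abs_two, abs_of_nonneg (by linarith)]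
  rw [h5]
  have h6 : |(δ - α) / 2| = |δ - α| / 2 := by rw [abs_div, abs_two]
  rw [h6] at hj
  have h7 : sin α * |sin ((δ - α) / 2)| ≤ 2 * sin ((δ + α) / 2) * |sin ((δ - α) / 2)| :=
    mul_le_mul_of_nonneg_right (by linarith) (abs_nonneg _)
  have h8 : |δ - α| ≤ π * |sin ((δ - α) / 2)| := by
    have : 2 / π * (|δ - α| / 2) = |δ - α| / π := by field_simp
    rw [this, div_le_iff₀ hpi] at hj
    linarith
  calc sin α * |δ - α| ≤ sin α * (π * |sin ((δ - α) / 2)|) :=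
        mul_le_mul_of_nonneg_left h8 hsin0.le
    _ = π * (sin α * |sin ((δ - α) / 2)|) := by ring
    _ ≤ π * (2 * sin ((δ + α) / 2) * |sin ((δ - α) / 2)|) :=
        mul_le_mul_of_nonneg_left h7 hpi.le

variable {n p : ℕ} {θ : ℝ} {Z : ℕ → ℝ} {h : ℝ → ℝ}

/-- half gap -/
noncomputable def hg (Z : ℕ → ℝ) (j : ℕ) : ℝ := (Z (j + 1) - Z j) / 2

theorem K_left (h : ℝ → ℝ) (Z : ℕ → ℝ) (k : ℕ) : K h (Z (k + 1)) (mid Z k) =
    h (mid Z k) * cos (hg Z k) + deriv h (mid Z k) * sin (hg Z k) := by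
  unfold K
  have : mid Z k - Z (k + 1) = -hg Z k := by unfold mid hg; ring
  rw [this, cos_neg, sin_neg]
  ring

theorem K_right (h : ℝ → ℝ) (Z : ℕ → ℝ) (k : ℕ) : K h (Z k) (mid Z k) =
    h (mid Z k) * cos (hg Z k) - deriv h (mid Z k) * sin (hg Z k) := by
  unfold K
  have : mid Z k - Z k = hg Z k := by unfold mid hg; ring
  rw [this]

theorem cos_step {e : ℝ} (h0 : ∀ x, |h x - 1| ≤ e) (h1 : ∀ x, |deriv h x| ≤ e) {k : ℕ}
    (hc : K h (Z (k + 1)) (mid Z k) = K h (Z (k + 1)) (mid Z (k + 1))) :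
    |cos (hg Z (k + 1)) - cos (hg Z k)| ≤ 4 * e := by
  rw [K_left, K_right] at hc
  have he : 0 ≤ e := (abs_nonneg _).trans (h0 0)
  have b : ∀ (x y : ℝ), |x| ≤ e → |y| ≤ 1 → |x * y| ≤ e := by
    intro x y hx hy
    rw [abs_mul]
    calc |x| * |y| ≤ e * 1 := mul_le_mul hx hy (abs_nonneg _) he
      _ = e := mul_one e
  have b1 := b _ _ (h0 (mid Z k)) (abs_cos_le_one (hg Z k))
  have b2 := b _ _ (h1 (mid Z k)) (abs_sin_le_one (hg Z k))
  have b3 := b _ _ (h0 (mid Z (k + 1))) (abs_cos_le_one (hg Z (k + 1)))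
  have b4 := b _ _ (h1 (mid Z (k + 1))) (abs_sin_le_one (hg Z (k + 1)))
  have e1 : cos (hg Z (k + 1)) - cos (hg Z k) =
      (h (mid Z k) - 1) * cos (hg Z k) + deriv h (mid Z k) * sin (hg Z k)
        - (h (mid Z (k + 1)) - 1) * cos (hg Z (k + 1))
        + deriv h (mid Z (k + 1)) * sin (hg Z (k + 1)) := by linarith
  rw [e1]
  rw [abs_le] at *
  constructor <;> linarith [b1.1, b1.2, b2.1, b2.2, b3.1, b3.2, b4.1, b4.2]

theorem cos_any {e : ℝ} (he : 0 ≤ e) (hc : ∀ k < n, |cos (hg Z (k + 1)) - cos (hg Z k)| ≤ 4 * e) :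
    ∀ i ≤ n, ∀ j ≤ n, |cos (hg Z i) - cos (hg Z j)| ≤ 4 * n * e := by
  have key : ∀ i, ∀ m, i + m ≤ n → |cos (hg Z (i + m)) - cos (hg Z i)| ≤ 4 * m * e := by
    intro i m
    induction m with
    | zero => intro _; simp
    | succ m ih =>
      intro hm
      have h1 := ih (by omega)
      have h2 := hc (i + m) (by omega)
      have h3 := abs_sub_le (cos (hg Z (i + (m + 1)))) (cos (hg Z (i + m))) (cos (hg Z i))
      have e1 : i + (m + 1) = i + m + 1 := by ring
      rw [e1] at h3 ⊢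
      push_cast
      linarith
  have key2 : ∀ i ≤ n, ∀ j ≤ n, i ≤ j → |cos (hg Z i) - cos (hg Z j)| ≤ 4 * n * e := by
    intro i hi j hj hij
    obtain ⟨m, rfl⟩ := Nat.exists_eq_add_of_le hij
    rw [abs_sub_comm]
    refine (key i m hj).trans ?_
    have : (m : ℝ) ≤ n := by exact_mod_cast (by omega : m ≤ n)
    have := mul_le_mul_of_nonneg_right this he
    linarith
  intro i hi j hj
  rcases le_total i j with hij | hij
  · exact key2 i hi j hj hij
  · rw [abs_sub_comm]; exact key2 j hj i hi hij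

theorem sum_hg (Z : ℕ → ℝ) (m : ℕ) : ∑ j ∈ Finset.range m, hg Z j = (Z m - Z 0) / 2 := by
  induction m with
  | zero => simp
  | succ m ih => rw [Finset.sum_range_succ, ih]; unfold hg; ring

/-- the maximal chains of a table close to the disc are close to the regular polygon -/
theorem MaxP_close (H : Adm h) (hp : 1 ≤ p) (hpn : p ≤ n) (M : MaxP h n p θ Z) {e : ℝ}
    (h0 : ∀ x, |h x - 1| ≤ e) (h1 : ∀ x, |deriv h x| ≤ e) :
    ∀ j ≤ n, sin (π * p / (n + 1)) * |hg Z j - π * p / (n + 1)| ≤ π * (4 * n * e) := by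
  have hpi := Real.pi_pos
  have he : 0 ≤ e := (abs_nonneg _).trans (h0 0)
  obtain ⟨α, hα⟩ : ∃ α, α = π * p / (n + 1) := ⟨_, rfl⟩
  rw [← hα]
  have hn1 : (0 : ℝ) < n + 1 := by positivity
  have hp0 : (0 : ℝ) < p := by exact_mod_cast hp
  have hα0 : 0 < α := by rw [hα]; positivity
  have hαπ : α < π := by
    rw [hα, div_lt_iff₀ hn1]
    have : (p : ℝ) < n + 1 := by exact_mod_cast Nat.lt_succ_of_le hpn
    nlinarith
  have hpos : ∀ j ≤ n, 0 < hg Z j := fun j hj => by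
    have := M.pos H hp j hj
    unfold hg; linarith
  have hlt : ∀ j ≤ n, hg Z j < π := fun j hj => by
    have := M.lt_top H hpn j hj
    unfold hg; linarith
  have hc : ∀ k < n, |cos (hg Z (k + 1)) - cos (hg Z k)| ≤ 4 * e := fun k hk =>
    cos_step h0 h1 (M.crit H hp hpn (k := k) hk)
  have hany := cos_any he hc
  have hsum : ∑ j ∈ Finset.range (n + 1), hg Z j = ∑ j ∈ Finset.range (n + 1), α := by
    rw [sum_hg, M.1.1, M.1.2.1, Finset.sum_const, Finset.card_range, nsmul_eq_mul, hα]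
    push_cast
    field_simp
    ring
  have hne : (Finset.range (n + 1)).Nonempty := ⟨0, Finset.mem_range.2 (Nat.succ_pos n)⟩
  obtain ⟨i1, hi1, hle1⟩ := Finset.exists_le_of_sum_le hne hsum.le
  obtain ⟨i2, hi2, hle2⟩ := Finset.exists_le_of_sum_le hne hsum.ge
  have hi1' : i1 ≤ n := by have := Finset.mem_range.1 hi1; omega
  have hi2' : i2 ≤ n := by have := Finset.mem_range.1 hi2; omega
  intro j hj
  refine (cos_gap hα0 hαπ (hpos j hj) (hlt j hj)).trans (mul_le_mul_of_nonneg_left ?_ hpi.le)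
  have c1 : cos α ≤ cos (hg Z i1) :=
    cos_le_cos_of_nonneg_of_le_pi (hpos i1 hi1').le hαπ.le hle1
  have c2 : cos (hg Z i2) ≤ cos α :=
    cos_le_cos_of_nonneg_of_le_pi hα0.le (hlt i2 hi2').le hle2
  have a1 := abs_le.1 (hany j hj i1 hi1')
  have a2 := abs_le.1 (hany j hj i2 hi2')
  rw [abs_le]
  constructor <;> linarith [a1.1, a1.2, a2.1, a2.2]

/-- the chain of directions attached to the pinned direction `θ` -/
theorem chain (H : Adm h) (hp : 1 ≤ p) (hpn : p ≤ n) (hC : CstP h n p) {e : ℝ}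
    (h0 : ∀ x, |h x - 1| ≤ e) (h1 : ∀ x, |deriv h x| ≤ e) (θ : ℝ) :
    ∃ Z : ℕ → ℝ, Z 0 = θ ∧ Z (n + 1) = θ + 2 * π * p ∧
      (∀ k < n, h (mid Z k) * cos (hg Z k) + deriv h (mid Z k) * sin (hg Z k) =
        h (mid Z (k + 1)) * cos (hg Z (k + 1)) - deriv h (mid Z (k + 1)) * sin (hg Z (k + 1))) ∧
      (∀ j ≤ n, sin (π * p / (n + 1)) * |hg Z j - π * p / (n + 1)| ≤ 4 * π * n * e) ∧
      (∀ j ≤ n + 1, sin (π * p / (n + 1)) * |Z j - (θ + 2 * (π * p / (n + 1)) * j)| ≤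
        8 * π * (n + 1) ^ 2 * e) ∧
      ∑ j ∈ Finset.range (n + 1), 2 * h (mid Z j) * sin (hg Z j) = mxP h n p 0 := by
  have hpi := Real.pi_pos
  have he : 0 ≤ e := (abs_nonneg _).trans (h0 0)
  obtain ⟨Z, M⟩ := exists_maxP H.an.continuous (show p ≤ n + 1 by omega) θ
  have hcl := MaxP_close H hp hpn M h0 h1
  obtain ⟨α, hα⟩ : ∃ α, α = π * p / (n + 1) := ⟨_, rfl⟩
  rw [← hα] at hcl ⊢
  have hn1 : (0 : ℝ) < n + 1 := by positivity
  have hp0 : (0 : ℝ) < p := by exact_mod_cast hp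
  have hα0 : 0 < α := by rw [hα]; positivity
  have hαπ : α < π := by
    rw [hα, div_lt_iff₀ hn1]
    have : (p : ℝ) < n + 1 := by exact_mod_cast Nat.lt_succ_of_le hpn
    nlinarith
  have hs0 : 0 < sin α := sin_pos_of_pos_of_lt_pi hα0 hαπ
  refine ⟨Z, M.1.1, M.1.2.1, ?_, ?_, ?_, ?_⟩
  · intro k hk
    have := M.crit H hp hpn (k := k) hk
    rwa [K_left, K_right] at this
  · intro j hj
    refine (hcl j hj).trans (le_of_eq ?_)
    ring
  · intro j hj
    have e1 : Z j - (θ + 2 * α * j) = 2 * ∑ i ∈ Finset.range j, (hg Z i - α) := by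
      rw [Finset.sum_sub_distrib, sum_hg, M.1.1, Finset.sum_const, Finset.card_range,
        nsmul_eq_mul]
      ring
    rw [e1, abs_mul, abs_two]
    have h3 : sin α * |∑ i ∈ Finset.range j, (hg Z i - α)| ≤ j * (π * (4 * n * e)) := by
      calc sin α * |∑ i ∈ Finset.range j, (hg Z i - α)|
          ≤ sin α * ∑ i ∈ Finset.range j, |hg Z i - α| :=
            mul_le_mul_of_nonneg_left (Finset.abs_sum_le_sum_abs _ _) hs0.le
        _ = ∑ i ∈ Finset.range j, sin α * |hg Z i - α| := Finset.mul_sum _ _ _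
        _ ≤ ∑ i ∈ Finset.range j, π * (4 * n * e) :=
            Finset.sum_le_sum fun i hi => hcl i (by have := Finset.mem_range.1 hi; omega)
        _ = j * (π * (4 * n * e)) := by rw [Finset.sum_const, Finset.card_range, nsmul_eq_mul]
    have h4 : (j : ℝ) * (π * (4 * n * e)) ≤ (n + 1) * (π * (4 * (n + 1) * e)) := by
      have hj' : (j : ℝ) ≤ n + 1 := by exact_mod_cast hj
      have hn' : (0 : ℝ) ≤ n := Nat.cast_nonneg n
      gcongr
      linarith
    calc sin α * (2 * |∑ i ∈ Finset.range j, (hg Z i - α)|)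
        = 2 * (sin α * |∑ i ∈ Finset.range j, (hg Z i - α)|) := by ring
      _ ≤ 2 * ((n + 1) * (π * (4 * (n + 1) * e))) := by linarith
      _ = 8 * π * (n + 1) ^ 2 * e := by ring
  · have h5 := M.mx_eq H.an.continuous
    rw [hC θ] at h5
    rw [h5]
    unfold L S
    refine Finset.sum_congr rfl fun j _ => ?_
    rfl

end Vale.Agent.P097.H209D
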