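import Vale.Agent.P097.H407.Red
import Vale.Agent.P097.FD.Approx

/-! # P097 / H209D : the ellipse with given Fourier modes of index at most two -/

set_option linter.all false

namespace Vale.Agent.P097.H209D

open Vale.Agent.P097 Vale.Agent.P097.FD Vale.Agent.P097.TOP Vale.Agent.P097.Reg
open Filter MeasureTheory
open scoped ContDiff Topology

/-- the remainder of the square root -/
theorem sqrt_rem {y : ℝ} (hy : |y| ≤ 1 / 4) :
    0 ≤ 1 + y / 2 - √(1 + y) ∧ 1 + y / 2 - √(1 + y) ≤ y ^ 2 / 4 := by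
  obtain ⟨h1, h2⟩ := abs_le.1 hy
  have h0 : 0 ≤ 1 + y := by linarith
  have hs := Real.sqrt_nonneg (1 + y)
  have hsq := Real.mul_self_sqrt h0
  have h3 : (1 + y / 2 - √(1 + y)) * (1 + y / 2 + √(1 + y)) = y ^ 2 / 4 := by
    nlinarith
  have h4 : 1 / 2 ≤ √(1 + y) := by
    apply Real.le_sqrt_of_sq_le
    norm_num
    linarith
  have h5 : 1 ≤ 1 + y / 2 + √(1 + y) := by linarith
  have h6 : 0 ≤ 1 + y / 2 - √(1 + y) := by
    by_contra hneg
    rw [not_le] at hneg
    have : (1 + y / 2 - √(1 + y)) * (1 + y / 2 + √(1 + y)) < 0 :=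
      mul_neg_of_neg_of_pos hneg (by linarith)
    nlinarith [sq_nonneg y]
  refine ⟨h6, ?_⟩
  nlinarith

noncomputable def wb (b x : ℝ) : ℝ := √(1 + b * Real.cos (2 * x))

theorem wb_cont : Continuous fun q : ℝ × ℝ => wb q.1 q.2 := by
  unfold wb; fun_prop

noncomputable def J0 (b : ℝ) : ℝ := (2 * Real.pi)⁻¹ * ∫ x in (0 : ℝ)..(2 * Real.pi), wb b x

noncomputable def J2 (b : ℝ) : ℝ :=
  (2 * Real.pi)⁻¹ * ∫ x in (0 : ℝ)..(2 * Real.pi), wb b x * Real.cos (2 * x)

theorem J0_cont : Continuous J0 := by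
  unfold J0
  refine continuous_const.mul ?_
  exact intervalIntegral.continuous_parametric_intervalIntegral_of_continuous' wb_cont _ _

theorem J2_cont : Continuous J2 := by
  unfold J2
  refine continuous_const.mul ?_
  refine intervalIntegral.continuous_parametric_intervalIntegral_of_continuous'
    (f := fun b x => wb b x * Real.cos (2 * x)) ?_ _ _
  exact wb_cont.mul (by fun_prop)

theorem int_cos2 : ∫ x in (0 : ℝ)..(2 * Real.pi), Real.cos (2 * x) = 0 := by
  rw [intervalIntegral.integral_comp_mul_left (fun y => Real.cos y) (by norm_num : (2 : ℝ) ≠ 0)]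
  rw [integral_cos]
  have : Real.sin (2 * (2 * Real.pi)) = 0 := by
    have := Real.sin_nat_mul_pi 4
    push_cast at this
    rw [← this]; ring_nf
  rw [this]
  simp

theorem int_cos2_sq : ∫ x in (0 : ℝ)..(2 * Real.pi), Real.cos (2 * x) * Real.cos (2 * x) = Real.pi := by
  have h : ∀ x : ℝ, Real.cos (2 * x) * Real.cos (2 * x) = 1 / 2 + Real.cos (4 * x) / 2 := by
    intro x
    have := Real.cos_sq (2 * x)
    rw [show 4 * x = 2 * (2 * x) by ring]
    nlinarith
  simp only [h]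
  rw [intervalIntegral.integral_add (by simp) (by apply Continuous.intervalIntegrable; fun_prop)]
  rw [intervalIntegral.integral_div, intervalIntegral.integral_div]
  rw [intervalIntegral.integral_comp_mul_left (fun y => Real.cos y) (by norm_num : (4 : ℝ) ≠ 0)]
  rw [integral_cos]
  have : Real.sin (4 * (2 * Real.pi)) = 0 := by
    have := Real.sin_nat_mul_pi 8
    push_cast at this
    rw [← this]; ring_nf
  rw [this]
  simp

theorem wb_arg {b : ℝ} (h0 : 0 ≤ b) (h1 : b ≤ 1 / 4) (x : ℝ) : |b * Real.cos (2 * x)| ≤ b ∧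
    |b * Real.cos (2 * x)| ≤ 1 / 4 := by
  have : |b * Real.cos (2 * x)| ≤ b := by
    rw [abs_mul, abs_of_nonneg h0]
    exact mul_le_of_le_one_right h0 (Real.abs_cos_le_one _)
  exact ⟨this, this.trans h1⟩

theorem wb_est {b : ℝ} (h0 : 0 ≤ b) (h1 : b ≤ 1 / 4) (x : ℝ) :
    |wb b x - (1 + b / 2 * Real.cos (2 * x))| ≤ b ^ 2 / 4 := by
  obtain ⟨a1, a2⟩ := wb_arg h0 h1 x
  obtain ⟨r1, r2⟩ := sqrt_rem a2
  unfold wb
  have h3 : (b * Real.cos (2 * x)) ^ 2 ≤ b ^ 2 := by
    rw [← sq_abs (b * Real.cos (2 * x))]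
    exact pow_le_pow_left₀ (abs_nonneg _) a1 2
  rw [abs_le]
  constructor <;> nlinarith

theorem J0_est {b : ℝ} (h0 : 0 ≤ b) (h1 : b ≤ 1 / 4) : |J0 b - 1| ≤ b ^ 2 / 4 := by
  have hpi := Real.pi_pos
  have hc : Continuous fun x => wb b x := by unfold wb; fun_prop
  have e1 : J0 b - 1 = (2 * Real.pi)⁻¹ *
      ∫ x in (0 : ℝ)..(2 * Real.pi), (wb b x - (1 + b / 2 * Real.cos (2 * x))) := by
    rw [intervalIntegral.integral_sub (hc.intervalIntegrable _ _)
      (by apply Continuous.intervalIntegrable; fun_prop),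
      intervalIntegral.integral_add (by simp) (by apply Continuous.intervalIntegrable; fun_prop),
      intervalIntegral.integral_const_mul, int_cos2]
    unfold J0
    simp
    field_simp
  rw [e1, abs_mul, abs_of_pos (by positivity)]
  have h2 := intervalIntegral.norm_integral_le_of_norm_le_const (a := 0) (b := 2 * Real.pi)
    (f := fun x => wb b x - (1 + b / 2 * Real.cos (2 * x))) (C := b ^ 2 / 4)
    fun x _ => wb_est h0 h1 x
  rw [sub_zero, abs_of_pos Real.two_pi_pos, Real.norm_eq_abs] at h2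
  rw [inv_mul_le_iff₀ Real.two_pi_pos]
  linarith

theorem J2_est {b : ℝ} (h0 : 0 ≤ b) (h1 : b ≤ 1 / 4) : |J2 b - b / 4| ≤ b ^ 2 / 4 := by
  have hpi := Real.pi_pos
  have hc : Continuous fun x => wb b x * Real.cos (2 * x) := by unfold wb; fun_prop
  have e1 : J2 b - b / 4 = (2 * Real.pi)⁻¹ *
      ∫ x in (0 : ℝ)..(2 * Real.pi),
        ((wb b x * Real.cos (2 * x)) - (Real.cos (2 * x) + b / 2 * (Real.cos (2 * x) * Real.cos (2 * x)))) := by
    rw [intervalIntegral.integral_sub (hc.intervalIntegrable _ _)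
      (by apply Continuous.intervalIntegrable; fun_prop),
      intervalIntegral.integral_add (by apply Continuous.intervalIntegrable; fun_prop)
        (by apply Continuous.intervalIntegrable; fun_prop),
      intervalIntegral.integral_const_mul, int_cos2, int_cos2_sq]
    unfold J2
    field_simp
    ring
  rw [e1, abs_mul, abs_of_pos (by positivity)]
  have h2 := intervalIntegral.norm_integral_le_of_norm_le_const (a := 0) (b := 2 * Real.pi)
    (f := fun x => (wb b x * Real.cos (2 * x)) -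
      (Real.cos (2 * x) + b / 2 * (Real.cos (2 * x) * Real.cos (2 * x)))) (C := b ^ 2 / 4)
    (fun x _ => by
      have e2 : (wb b x * Real.cos (2 * x)) -
        (Real.cos (2 * x) + b / 2 * (Real.cos (2 * x) * Real.cos (2 * x))) =
        (wb b x - (1 + b / 2 * Real.cos (2 * x))) * Real.cos (2 * x) := by ring
      rw [e2, norm_mul, Real.norm_eq_abs, Real.norm_eq_abs]
      have := wb_est h0 h1 x
      have h3 := Real.abs_cos_le_one (2 * x)
      calc _ ≤ b ^ 2 / 4 * 1 := mul_le_mul this h3 (abs_nonneg _) (by positivity)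
        _ = _ := mul_one _)
  rw [sub_zero, abs_of_pos Real.two_pi_pos, Real.norm_eq_abs] at h2
  rw [inv_mul_le_iff₀ Real.two_pi_pos]
  linarith

/-- the parameter of the ellipse with given ratio of modes -/
theorem exists_b {r : ℝ} (h0 : 0 ≤ r) (h1 : r ≤ 3 / 64) : ∃ b : ℝ, 0 ≤ b ∧ b ≤ 1 / 4 ∧
    J2 b = r * J0 b ∧ b ≤ 6 * r ∧ |b - 4 * r| ≤ 100 * r ^ 2 := by
  have hc : ContinuousOn (fun b => J2 b - r * J0 b) (Set.Icc 0 (1 / 4)) :=
    (J2_cont.sub (continuous_const.mul J0_cont)).continuousOn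
  have hJ0 : ∀ b, 0 ≤ b → b ≤ 1 / 4 → 63 / 64 ≤ J0 b ∧ J0 b ≤ 65 / 64 := by
    intro b hb0 hb1
    have := abs_le.1 (J0_est hb0 hb1)
    constructor <;> nlinarith [this.1, this.2]
  have ha : J2 0 - r * J0 0 ≤ 0 := by
    have h2 := abs_le.1 (J2_est le_rfl (by norm_num : (0 : ℝ) ≤ 1 / 4))
    have h3 := hJ0 0 le_rfl (by norm_num)
    nlinarith [h2.1, h2.2, h3.1, h3.2]
  have hb : 0 ≤ J2 (1 / 4) - r * J0 (1 / 4) := by
    have h2 := abs_le.1 (J2_est (by norm_num : (0 : ℝ) ≤ 1 / 4) le_rfl)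
    have h3 := J0_est (by norm_num : (0 : ℝ) ≤ 1 / 4) le_rfl
    have h4 : J0 (1 / 4) ≤ 1 := by
      -- the mean of the square root is at most one
      have hpi := Real.pi_pos
      have hcw : Continuous fun x => wb (1 / 4) x := by unfold wb; fun_prop
      unfold J0
      rw [inv_mul_le_iff₀ Real.two_pi_pos, mul_one]
      have h5 : ∫ x in (0 : ℝ)..(2 * Real.pi), wb (1 / 4) x ≤
          ∫ x in (0 : ℝ)..(2 * Real.pi), (1 + 1 / 8 * Real.cos (2 * x)) := by
        refine intervalIntegral.integral_mono_on Real.two_pi_pos.le (hcw.intervalIntegrable _ _)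
          (by apply Continuous.intervalIntegrable; fun_prop) fun x _ => ?_
        have h6 := (sqrt_rem (wb_arg (by norm_num : (0 : ℝ) ≤ 1 / 4) le_rfl x).2).1
        unfold wb
        linarith
      rw [intervalIntegral.integral_add (by simp) (by apply Continuous.intervalIntegrable; fun_prop),
        intervalIntegral.integral_const_mul, int_cos2] at h5
      simpa using h5
    nlinarith [h2.1, h2.2]
  obtain ⟨b, hb', hbz⟩ := intermediate_value_Icc (by norm_num : (0 : ℝ) ≤ 1 / 4) hc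
    (show (0 : ℝ) ∈ Set.Icc (J2 0 - r * J0 0) (J2 (1 / 4) - r * J0 (1 / 4)) from ⟨ha, hb⟩)
  have hb0 := hb'.1
  have hb1 := hb'.2
  have e1 : J2 b = r * J0 b := by
    have : J2 b - r * J0 b = 0 := hbz
    linarith
  have h2 := abs_le.1 (J2_est hb0 hb1)
  have h3 := hJ0 b hb0 hb1
  have h4 := abs_le.1 (J0_est hb0 hb1)
  have hb6 : b ≤ 6 * r := by
    have h5 : 3 / 16 * b ≤ J2 b := by nlinarith [h2.1]
    have h6 : r * J0 b ≤ r * (65 / 64) := mul_le_mul_of_nonneg_left h3.2 h0
    nlinarith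
  refine ⟨b, hb0, hb1, e1, hb6, ?_⟩
  have hb2 : b ^ 2 ≤ 36 * r ^ 2 := by nlinarith
  have h7 : |r * J0 b - r| ≤ r * (b ^ 2 / 4) := by
    rw [← mul_sub_one, abs_mul, abs_of_nonneg h0]
    exact mul_le_mul_of_nonneg_left (J0_est hb0 hb1) h0
  have h8 := abs_le.1 h7
  rw [e1] at h2
  have hr2 : 0 ≤ r ^ 2 := sq_nonneg r
  have h9 : r * (b ^ 2 / 4) ≤ r ^ 2 := by nlinarith
  rw [abs_le]
  constructor <;> nlinarith [h2.1, h2.2, h8.1, h8.2]

end Vale.Agent.P097.H209D
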