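import Vale.Agent.P097.H209D.Chain
import Vale.Agent.P097.H795.D1.Picard
import Vale.Agent.P097.H500.G.Func
import Vale.Agent.P097.FD.Approx

/-! # P097 / H209D : the modes of the critical value vanish for integrable tables -/

set_option linter.all false

namespace Vale.Agent.P097.H209D

open Vale.Agent.P097 Vale.Agent.P097.PV Complex Metric
open Vale.Agent.P097.H795.D1 (Num cv cu Ac md df cr rho cu_unique)

section

variable {h : ℝ → ℝ} {g : ℂ → ℂ} {b e : ℝ}

theorem shift_mem {x : ℝ} {c : ℝ} {w : ℂ} {b : ℝ} (hw : w ∈ ball (0 : ℂ) b) :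
    |((x : ℂ) + (c : ℂ) + w).im| < b := by
  rw [mem_ball_zero_iff] at hw
  have : ((x : ℂ) + (c : ℂ) + w).im = w.im := by simp
  rw [this]
  exact (Complex.abs_im_le_norm w).trans_lt hw

theorem isOpen_st (b : ℝ) : IsOpen {z : ℂ | |z.im| < b} :=
  isOpen_lt (by fun_prop) continuous_const

theorem deriv_real (hd : Differentiable ℝ h) (hb : 0 < b)
    (hgd : DifferentiableOn ℂ g {z : ℂ | |z.im| < b})
    (hr : ∀ x : ℝ, g x = ((h x - 1 : ℝ) : ℂ)) (x : ℝ) :
    deriv g (x : ℂ) = ((deriv h x : ℝ) : ℂ) := by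
  have hx : (x : ℂ) ∈ {z : ℂ | |z.im| < b} := by simpa using hb
  have h1 : HasDerivAt g (deriv g (x : ℂ)) (x : ℂ) :=
    (hgd.differentiableAt ((isOpen_st b).mem_nhds hx)).hasDerivAt
  have h2 := h1.comp_ofReal
  have h3 : HasDerivAt (fun y : ℝ => ((h y - 1 : ℝ) : ℂ)) ((deriv h x : ℝ) : ℂ) x :=
    ((hd x).hasDerivAt.sub_const 1).ofReal_comp
  have h4 : (fun y : ℝ => g (y : ℂ)) = fun y : ℝ => ((h y - 1 : ℝ) : ℂ) := funext hr
  rw [h4] at h2
  exact h2.unique h3

theorem deriv_bd (hb : 0 < b) (hgd : DifferentiableOn ℂ g {z : ℂ | |z.im| < b})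
    (hbd : ∀ z : ℂ, |z.im| < b → ‖g z‖ ≤ e) (x : ℝ) : ‖deriv g (x : ℂ)‖ ≤ e / (b / 2) := by
  have hsub : closedBall (x : ℂ) (b / 2) ⊆ {z : ℂ | |z.im| < b} := by
    intro z hz
    rw [mem_closedBall, dist_eq_norm] at hz
    have h1 := (Complex.abs_im_le_norm (z - x)).trans hz
    have h2 : (z - (x : ℂ)).im = z.im := by simp
    rw [h2] at h1
    show |z.im| < b
    linarith
  exact Complex.norm_deriv_le_of_forall_mem_sphere_norm_le (by positivity)
    ((hgd.mono hsub).diffContOnCl_ball subset_rfl)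
    (fun z hz => hbd z (hsub (sphere_subset_closedBall hz)))

/-- the critical value of 795's core is half of the maximal length -/
theorem cv_eq (H : Adm h) {n p : ℕ} (hp : 1 ≤ p) (hpn : p ≤ n) (hC : CstP h n p)
    {α : ℝ} (hα : α = Real.pi * p / (n + 1)) (hN : Num (n + 1) α b e)
    (hgd : DifferentiableOn ℂ g {z : ℂ | |z.im| < b}) (hbd : ∀ z : ℂ, |z.im| < b → ‖g z‖ ≤ e)
    (hr : ∀ x : ℝ, g x = ((h x - 1 : ℝ) : ℂ)) (x : ℝ) :
    cv (n + 1) α (fun j w => g ((x : ℂ) + (α * (2 * j + 1) : ℝ) + w)) =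
      ((mxP h n p 0 / 2 : ℝ) : ℂ) := by
  have hpi := Real.pi_pos
  have hb := hN.hb
  have hb1 := hN.hb1
  have he := hN.he
  have hs := hN.hs
  have hsm := hN.sm
  have hd : Differentiable ℝ h := fun y => (H.an y).differentiableAt
  -- real bounds
  obtain ⟨e', he'⟩ : ∃ e', e' = e / (b / 2) := ⟨_, rfl⟩
  have hee : e ≤ e' := by
    rw [he', le_div_iff₀ (by positivity)]
    nlinarith
  have h0 : ∀ y, |h y - 1| ≤ e' := by
    intro y
    have h1 := hbd (y : ℂ) (by simpa using hb)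
    rw [hr, Complex.norm_real, Real.norm_eq_abs] at h1
    exact h1.trans hee
  have h1 : ∀ y, |deriv h y| ≤ e' := by
    intro y
    have h2 := deriv_bd hb hgd hbd y
    rw [deriv_real hd hb hgd hr, Complex.norm_real, Real.norm_eq_abs] at h2
    rw [he']
    exact h2
  obtain ⟨Z, z0, zn, zc, zg, zu, zL⟩ := chain H hp hpn hC h0 h1 x
  rw [← hα] at zg zu
  have hn1 : (0 : ℝ) < (n : ℝ) + 1 := by positivity
  set G : ℕ → ℂ → ℂ := fun j w => g ((x : ℂ) + (α * (2 * j + 1) : ℝ) + w) with hG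
  have hAdm : H795.D1.Adm (n + 1) b e G := by
    constructor
    · intro j _
      refine hgd.comp (by fun_prop) ?_
      intro w hw
      exact shift_mem hw
    · intro j _ w hw
      exact hbd _ (shift_mem hw)
  set u : ℕ → ℂ := fun j => ((Z j - (x + 2 * α * j) : ℝ) : ℂ) with hu
  have hu0 : u 0 = 0 := by
    simp only [hu, z0]
    norm_num
  have hun : u (n + 1) = 0 := by
    simp only [hu, zn]
    rw [hα]
    have : x + 2 * Real.pi * p - (x + 2 * (Real.pi * p / (n + 1)) * ((n + 1 : ℕ) : ℝ)) = 0 := by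
      push_cast
      field_simp
      ring
    rw [this, Complex.ofReal_zero]
  have hmd : ∀ j, md u j = ((mid Z j - x - α * (2 * j + 1) : ℝ) : ℂ) := by
    intro j
    unfold md mid
    simp only [hu]
    push_cast
    ring
  have hdf : ∀ j, (α : ℂ) + df u j = ((hg Z j : ℝ) : ℂ) := by
    intro j
    unfold df hg
    simp only [hu]
    push_cast
    ring
  have harg : ∀ j : ℕ, (x : ℂ) + ((α * (2 * (j : ℝ) + 1) : ℝ) : ℂ) + md u j = ((mid Z j : ℝ) : ℂ) := by
    intro j
    rw [hmd]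
    push_cast
    ring
  have hval : ∀ j : ℕ, 1 + G j (md u j) = ((h (mid Z j) : ℝ) : ℂ) := by
    intro j
    simp only [hG]
    rw [harg, hr]
    push_cast
    ring
  have hder : ∀ j : ℕ, deriv (G j) (md u j) = ((deriv h (mid Z j) : ℝ) : ℂ) := by
    intro j
    have e1 : deriv (G j) (md u j) = deriv g ((x : ℂ) + ((α * (2 * (j : ℝ) + 1) : ℝ) : ℂ) + md u j) := by
      simp only [hG]
      exact deriv_comp_const_add _ _ _
    rw [e1, harg, deriv_real hd hb hgd hr]
  have hsz : ∀ i ≤ n + 1, ‖u i‖ ≤ rho (n + 1) α b := by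
    intro i hi
    have h3 := zu i hi
    simp only [hu]
    rw [Complex.norm_real, Real.norm_eq_abs]
    unfold rho
    rw [le_div_iff₀ (by positivity)]
    rw [le_div_iff₀ (by positivity)] at hsm
    have hpi4 : Real.pi < 3.15 := Real.pi_lt_d2
    have e2 : e' * b = 2 * e := by rw [he']; field_simp
    have h4 : (Real.sin α * |Z i - (x + 2 * α * i)|) * b ≤
        8 * Real.pi * ((n : ℝ) + 1) ^ 2 * (2 * e) := by
      calc (Real.sin α * |Z i - (x + 2 * α * i)|) * b
          ≤ (8 * Real.pi * ((n : ℝ) + 1) ^ 2 * e') * b := mul_le_mul_of_nonneg_right h3 hb.le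
        _ = 8 * Real.pi * ((n : ℝ) + 1) ^ 2 * (e' * b) := by ring
        _ = _ := by rw [e2]
    have h5 : 8 * Real.pi * ((n : ℝ) + 1) ^ 2 * (2 * e) ≤ 51 * (((n : ℝ) + 1) ^ 2 * e) := by
      have : 0 ≤ ((n : ℝ) + 1) ^ 2 * e := by positivity
      nlinarith
    push_cast at hsm ⊢
    have h6 : (Real.sin α * b) * (|Z i - (x + 2 * α * i)| * (64 * ((n : ℝ) + 1) ^ 2)) ≤
        (Real.sin α * b) * (b * Real.sin α) := by
      calc (Real.sin α * b) * (|Z i - (x + 2 * α * i)| * (64 * ((n : ℝ) + 1) ^ 2))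
          = (Real.sin α * |Z i - (x + 2 * α * i)|) * b * (64 * ((n : ℝ) + 1) ^ 2) := by ring
        _ ≤ (51 * (((n : ℝ) + 1) ^ 2 * e)) * (64 * ((n : ℝ) + 1) ^ 2) :=
            mul_le_mul_of_nonneg_right (h4.trans h5) (by positivity)
        _ ≤ e * (5120 * ((n : ℝ) + 1) ^ 4) := by
            have : 0 ≤ e * ((n : ℝ) + 1) ^ 4 := by positivity
            nlinarith
        _ ≤ b ^ 2 * Real.sin α ^ 2 := hsm
        _ = (Real.sin α * b) * (b * Real.sin α) := by ring
    exact le_of_mul_le_mul_left h6 (by positivity)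
  have hcr : ∀ j, j + 1 < n + 1 → cr α G u j = 0 := by
    intro j hj
    unfold cr
    rw [hdf, hdf, hval, hval, hder, hder]
    have := zc j (by omega)
    have h7 : (deriv h (mid Z j) * Real.sin (hg Z j) + h (mid Z j) * Real.cos (hg Z j)) +
        (deriv h (mid Z (j + 1)) * Real.sin (hg Z (j + 1)) -
          h (mid Z (j + 1)) * Real.cos (hg Z (j + 1))) = 0 := by linarith
    exact_mod_cast congrArg (fun t : ℝ => (t : ℂ)) h7
  have huq := cu_unique hN hAdm hu0 hun hsz hcr
  unfold cv Ac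
  have e3 : ∀ j ∈ Finset.range (n + 1), (1 + G j (md (cu (n + 1) α G) j)) *
      Complex.sin (α + df (cu (n + 1) α G) j) =
      ((h (mid Z j) * Real.sin (hg Z j) : ℝ) : ℂ) := by
    intro j hj
    have hj' := Finset.mem_range.1 hj
    have a1 : md (cu (n + 1) α G) j = md u j := by
      unfold md
      rw [← huq j hj'.le, ← huq (j + 1) hj']
    have a2 : df (cu (n + 1) α G) j = df u j := by
      unfold df
      rw [← huq j hj'.le, ← huq (j + 1) hj']
    rw [a1, a2, hval, hdf]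
    push_cast
    ring
  rw [Finset.sum_congr rfl e3, ← Complex.ofReal_sum]
  congr 1
  rw [← zL, Finset.sum_div]
  exact Finset.sum_congr rfl fun j _ => by ring

end

section

open Vale.Agent.P097.H500.G Vale.Agent.P097.Reg

/-- (P4) the Fourier modes of the critical value of an integrable table vanish -/
theorem FM_zero {h : ℝ → ℝ} (H : Adm h) {n p : ℕ} (hp : 1 ≤ p) (hpn : p ≤ n) (hC : CstP h n p)
    {α b e : ℝ} (hα : α = Real.pi * p / (n + 1)) (hN : Num (n + 1) α (b / 2) e) {a : ℤ → ℂ}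
    (ha : ∀ k, a k = R4.cf (fun x => h x - 1) k) (hs : WS b a) (hw : wn b a ≤ e) {m : ℤ}
    (hm : m ≠ 0) : FM (cv (n + 1) α) α m a = 0 := by
  have hb2 := hN.hb
  have hb : 0 < b := by linarith
  have hc : Continuous fun x => h x - 1 := H.an.continuous.sub continuous_const
  have hper : ∀ x, (fun x => h x - 1) (x + 2 * Real.pi) = (fun x => h x - 1) x := fun x => by
    show h (x + 2 * Real.pi) - 1 = h x - 1
    rw [H.per]
  have hsum : Summable fun k : ℤ => ‖R4.cf (fun x => h x - 1) k‖ := by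
    refine Summable.of_nonneg_of_le (fun k => norm_nonneg _) (fun k => ?_) hs
    rw [← ha]
    exact le_mul_of_one_le_right (norm_nonneg _) (Real.one_le_exp (by positivity))
  have hr : ∀ x : ℝ, gs a x = ((h x - 1 : ℝ) : ℂ) := by
    intro x
    have h1 := (R4.inversion hc hper hsum x).tsum_eq
    unfold gs
    rw [← h1]
    refine tsum_congr fun k => ?_
    rw [ha]
    rfl
  have hs0 : WS b (H500.G.rot ((0 : ℝ) * Complex.I) a) := by rw [rot_zero']; exact hs
  have hgd : DifferentiableOn ℂ (gs a) {z : ℂ | |z.im| < b / 2} := by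
    refine (differentiableOn_gs (τ := 0) hs hs0).mono ?_
    intro z hz
    rw [mem_Strip_zero]
    have : |z.im| < b / 2 := hz
    linarith
  have hbd : ∀ z : ℂ, |z.im| < b / 2 → ‖gs a z‖ ≤ e := fun z hz =>
    (norm_gs_le' hs (by linarith)).trans hw
  have hphi : ∀ x : ℝ, Phi (cv (n + 1) α) α a x = ((mxP h n p 0 / 2 : ℝ) : ℂ) := fun x =>
    cv_eq H hp hpn hC hα hN hgd hbd hr x
  unfold FM
  simp only [hphi]
  rw [intervalIntegral.integral_const_mul]
  have h0 : ∫ x in (0 : ℝ)..(2 * Real.pi), ek (-m) x = 0 := by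
    have h1 : ∀ x : ℝ, ek (-m) x = Complex.exp ((-(Complex.I * m)) * x) := by
      intro x
      unfold ek
      congr 1
      push_cast
      ring
    simp only [h1]
    have hc0 : -(Complex.I * (m : ℂ)) ≠ 0 :=
      neg_ne_zero.2 (mul_ne_zero Complex.I_ne_zero (by exact_mod_cast hm))
    rw [integral_exp_mul_complex hc0]
    have h2 : -(Complex.I * (m : ℂ)) * ((2 * Real.pi : ℝ) : ℂ) =
        ((-m : ℤ) : ℂ) * (2 * Real.pi * Complex.I) := by push_cast; ring
    rw [h2, Complex.exp_int_mul_two_pi_mul_I]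
    simp
  rw [h0, mul_zero, mul_zero]

end

end Vale.Agent.P097.H209D
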