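import Vale.Agent.P097.H407.Det

/-! # P097 / H209D : the linear strip estimate in terms of Fourier coefficients -/

set_option linter.all false

namespace Vale.Agent.P097.H209D

open Vale.Agent.P097 Vale.Agent.P097.FD Vale.Agent.P097.TOP Vale.Agent.P097.Reg
open Vale.Agent.P097.H407
open Filter MeasureTheory
open scoped ContDiff Topology

/-- the linear strip estimate: the Fourier coefficients of the difference of two integrable
tables decay exponentially, with a constant proportional to their maximum -/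
theorem lin_strip {η β M : ℝ} (hη : 0 < η) (hβ : 0 < β) (hM : 1 ≤ M) : ∃ B C : ℝ, 0 < B ∧ 0 ≤ C ∧
    ∀ h₁ h₂ : ℝ → ℝ, StripTab β M h₁ → StripTab β M h₂ → CstAll h₁ η → CstAll h₂ η →
      ∀ S : ℝ, (∀ k : ℤ, ‖R4.cf (fun x => h₁ x - h₂ x) k‖ ≤ S) →
        (∀ x, |h₁ x - h₂ x| ≤ C * S) ∧
        ∀ k : ℤ, ‖R4.cf (fun x => h₁ x - h₂ x) k‖ ≤ C * S * Real.exp (-(B * |(k : ℝ)|)) := by
  obtain ⟨β', C, hβ', hC, HF⟩ := stF_r η β M hη hβ hM
  have hsum : Summable fun m : ℤ => Real.exp (-(β' * |(m : ℝ)|)) := summable_exp_abs hβ'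
  have hsum2 : Summable fun m : ℤ => C * Real.exp (-(β' * |(m : ℝ)|)) := hsum.mul_left C
  obtain ⟨s0, hs0⟩ := Filter.eventually_atTop.1
    ((tendsto_tsum_compl_atTop_zero fun m : ℤ => C * Real.exp (-(β' * |(m : ℝ)|))).eventually
      (gt_mem_nhds (by norm_num : (0 : ℝ) < 1 / 2)))
  have htail := hs0 _ le_rfl
  refine ⟨β', max (2 * (s0.card : ℝ)) (C * (2 * (s0.card : ℝ))), hβ',
    le_max_of_le_left (by positivity), ?_⟩
  intro h₁ h₂ T1 T2 R1 R2 S hS
  have S1 := T1.contDiff hβ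
  have S2 := T2.contDiff hβ
  set g : ℝ → ℝ := fun x => h₁ x - h₂ x with hg
  have hgs : ContDiff ℝ ∞ g := S1.sub S2
  have hgp : ∀ x, g (x + 2 * Real.pi) = g x := fun x => by
    show h₁ (x + 2 * Real.pi) - h₂ (x + 2 * Real.pi) = h₁ x - h₂ x
    rw [T1.1, T2.1]
  have hS0 : 0 ≤ S := (norm_nonneg _).trans (hS 0)
  -- the maximum
  obtain ⟨x0, -, hmax⟩ := (isCompact_Icc (a := (0 : ℝ)) (b := 2 * Real.pi)).exists_isMaxOn
    (Set.nonempty_Icc.2 Real.two_pi_pos.le) (hgs.continuous.abs).continuousOn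
  have hb : ∀ x, |g x| ≤ |g x0| := by
    intro x
    have hper : Function.Periodic g (2 * Real.pi) := hgp
    obtain ⟨y, hy, hxy⟩ := hper.exists_mem_Ico₀ Real.two_pi_pos x
    rw [hxy]
    exact hmax ⟨hy.1, hy.2.le⟩
  set b : ℝ := |g x0| with hbd
  obtain ⟨G, g1, g2, g3⟩ := HF h₁ h₂ T1 T2 R1 R2 b hb
  have hcf : ∀ m : ℤ, ‖R4.cf g m‖ ≤ C * b * Real.exp (-(β' * |(m : ℝ)|)) := fun m =>
    cf_strip hβ' g1 g2 (h := g) (fun x => by rw [g3]; push_cast [hg]; rfl) hgp m
  have hcs : Summable fun m : ℤ => ‖R4.cf g m‖ := by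
    have := R4.cf_summable hgs hgp 0
    simpa using this
  have hinv := R4.inversion hgs.continuous hgp hcs x0
  have hle : b ≤ ∑' m : ℤ, ‖R4.cf g m‖ := by
    have h1 := norm_tsum_le_tsum_norm (f := fun m : ℤ => R4.cf g m * Complex.exp (Complex.I * m * x0))
      (by
        refine hcs.congr fun m => ?_
        rw [norm_mul]
        have : ‖Complex.exp (Complex.I * m * x0)‖ = 1 := by
          rw [show Complex.I * m * x0 = ((m * x0 : ℝ) : ℂ) * Complex.I by push_cast; ring,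
            Complex.norm_exp_ofReal_mul_I]
        rw [this, mul_one])
    rw [hinv.tsum_eq] at h1
    rw [Complex.norm_real, Real.norm_eq_abs] at h1
    refine h1.trans (le_of_eq ?_)
    refine tsum_congr fun m => ?_
    rw [norm_mul]
    have : ‖Complex.exp (Complex.I * m * x0)‖ = 1 := by
      rw [show Complex.I * m * x0 = ((m * x0 : ℝ) : ℂ) * Complex.I by push_cast; ring,
        Complex.norm_exp_ofReal_mul_I]
    rw [this, mul_one]
  have hsplit := (hcs.sum_add_tsum_compl (s := s0))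
  have hb0 : 0 ≤ b := abs_nonneg _
  have ht2 : ∑' m : ((s0 : Finset ℤ) : Set ℤ)ᶜ.Elem, ‖R4.cf g m‖ ≤ b * (1 / 2) := by
    have hc1 : Summable fun m : ((s0 : Finset ℤ) : Set ℤ)ᶜ.Elem =>
        C * Real.exp (-(β' * |((m : ℤ) : ℝ)|)) := hsum2.subtype _
    calc ∑' m : ((s0 : Finset ℤ) : Set ℤ)ᶜ.Elem, ‖R4.cf g m‖
        ≤ ∑' m : ((s0 : Finset ℤ) : Set ℤ)ᶜ.Elem,
          b * (C * Real.exp (-(β' * |((m : ℤ) : ℝ)|))) := by
          refine Summable.tsum_le_tsum (fun m => ?_) (hcs.subtype _) (hc1.mul_left b)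
          have := hcf m
          linarith
      _ = b * ∑' m : ((s0 : Finset ℤ) : Set ℤ)ᶜ.Elem,
          C * Real.exp (-(β' * |((m : ℤ) : ℝ)|)) := tsum_mul_left
      _ ≤ b * (1 / 2) := by
          refine mul_le_mul_of_nonneg_left (le_of_lt ?_) hb0
          exact htail
  have hfin : ∑ m ∈ s0, ‖R4.cf g m‖ ≤ s0.card * S := by
    refine (Finset.sum_le_sum fun m _ => hS m).trans (le_of_eq ?_)
    rw [Finset.sum_const, nsmul_eq_mul]
  have hbS : b ≤ 2 * (s0.card : ℝ) * S := by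
    rw [← hsplit] at hle
    linarith
  refine ⟨fun x => (hb x).trans (hbS.trans (mul_le_mul_of_nonneg_right (le_max_left _ _) hS0)),
    fun k => (hcf k).trans ?_⟩
  refine mul_le_mul_of_nonneg_right ?_ (Real.exp_pos _).le
  calc C * b ≤ C * (2 * (s0.card : ℝ) * S) := mul_le_mul_of_nonneg_left hbS hC
    _ = C * (2 * (s0.card : ℝ)) * S := by ring
    _ ≤ _ := mul_le_mul_of_nonneg_right (le_max_right _ _) hS0

end Vale.Agent.P097.H209D
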